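import Vale.Agent.P139.H901.ExtJ

/-!
# From `ExtJ` (exterior block, `J` normalisation) to `Ext` of block S2
-/

noncomputable section

open MeasureTheory Set Filter Topology Complex ComplexConjugate

namespace Vale.Agent.P139.H745

open KU H311 BU H901

lemma aa_pos' {m : ℕ} (hm : 1 ≤ m) : 0 < aa m := by
  unfold aa
  have : (0 : ℝ) < m := by exact_mod_cast hm
  positivity

lemma mem_HP0' {l m : ℕ} (hm : 1 ≤ m) {lam : ℂ} (h : 0 ≤ lam.re) :
    lam + (aa m : ℂ) ∈ HP0 l := by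
  have h1 := aa_pos' hm
  have h2 : (0 : ℝ) ≤ l := Nat.cast_nonneg l
  show 0 < (lam + (aa m : ℂ)).re + l / 2
  rw [Complex.add_re, Complex.ofReal_re]
  positivity

lemma radAdm_mono {K K' : ℕ} (h : K ≤ K') {F : ℝ → ℂ} (hF : RadAdm K' F) : RadAdm K F :=
  ⟨hF.smooth.of_le (by exact_mod_cast h), hF.bdd0, fun k hk => hF.bddinf k (hk.trans h)⟩

/-- radial functions are locally square integrable up to `0` -/
lemma intervalIntegrable_sq {K K' d : ℕ} {F G : ℝ → ℂ} (hF : RadAdm K F) (hG : RadAdm K' G)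
    {b : ℝ} (hb : 0 ≤ b) :
    IntervalIntegrable (fun r => r ^ (d - 1) * (‖F r‖ ^ 2 + ‖G r‖ ^ 2)) volume 0 b := by
  rw [intervalIntegrable_iff_integrableOn_Ioc_of_le hb]
  obtain ⟨C1, h1⟩ := hF.bdd0
  obtain ⟨C2, h2⟩ := hF.bddinf 0 (Nat.zero_le _)
  obtain ⟨C3, h3⟩ := hG.bdd0
  obtain ⟨C4, h4⟩ := hG.bddinf 0 (Nat.zero_le _)
  have bF : ∀ r, 0 < r → ‖F r‖ ≤ max C1 C2 := by
    intro r hr
    rcases lt_or_ge r 1 with h | h
    · exact (h1 r ⟨hr, h⟩).trans (le_max_left _ _)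
    · have := h2 r h
      rw [iteratedDeriv_zero] at this
      exact this.trans (le_max_right _ _)
  have bG : ∀ r, 0 < r → ‖G r‖ ≤ max C3 C4 := by
    intro r hr
    rcases lt_or_ge r 1 with h | h
    · exact (h3 r ⟨hr, h⟩).trans (le_max_left _ _)
    · have := h4 r h
      rw [iteratedDeriv_zero] at this
      exact this.trans (le_max_right _ _)
  refine Integrable.of_bound (μ := volume.restrict (Ioc 0 b)) ?_
    (b ^ (d - 1) * ((max C1 C2) ^ 2 + (max C3 C4) ^ 2)) ?_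
  · refine ContinuousOn.aestronglyMeasurable (f := fun r : ℝ => r ^ (d - 1) *
      (‖F r‖ ^ 2 + ‖G r‖ ^ 2)) ?_ measurableSet_Ioc
    have cF : ContinuousOn F (Ioc 0 b) := hF.smooth.continuousOn.mono fun x hx => hx.1
    have cG : ContinuousOn G (Ioc 0 b) := hG.smooth.continuousOn.mono fun x hx => hx.1
    exact (continuousOn_id.pow _).mul ((cF.norm.pow 2).add (cG.norm.pow 2))
  · refine (ae_restrict_iff' measurableSet_Ioc).mpr (Eventually.of_forall fun r hr => ?_)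
    have hr0 : 0 ≤ r := hr.1.le
    rw [Real.norm_of_nonneg (by positivity)]
    have := bF r hr.1
    have := bG r hr.1
    have := hr.2
    gcongr

lemma massN_le_nrm {K K' d : ℕ} {F G : ℝ → ℂ} (hF : RadAdm K F) (hG : RadAdm K' G) {ρ b : ℝ}
    (hρ : 0 ≤ ρ) (hb : ρ ≤ b) : Real.sqrt (H607.massN d F G ρ) ≤ nrm d b F G := by
  unfold nrm H607.massN
  refine Real.sqrt_le_sqrt ?_
  have e : ∫ r in (0 : ℝ)..ρ, (‖F r‖ ^ 2 + ‖G r‖ ^ 2) * r ^ (d - 1) =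
      ∫ r in (0 : ℝ)..ρ, r ^ (d - 1) * (‖F r‖ ^ 2 + ‖G r‖ ^ 2) := by
    congr 1; funext r; ring
  rw [e]
  refine intervalIntegral.integral_mono_interval le_rfl hρ hb ?_
    (intervalIntegrable_sq hF hG (hρ.trans hb))
  refine (ae_restrict_iff' measurableSet_Ioc).mpr (Eventually.of_forall fun r hr => ?_)
  have hr0 : 0 ≤ r := hr.1.le
  simp only [Pi.zero_apply]
  positivity

lemma ExtClose.mono {d l : ℕ} {w : ℝ} {x x0 α β α0 β0 c : ℂ} {F G : ℝ → ℂ} {s : Set ℝ}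
    {δ δ' : ℝ} (h : ExtClose d l w x x0 α β α0 β0 c F G s δ) (hδ : δ ≤ δ') :
    ExtClose d l w x x0 α β α0 β0 c F G s δ' :=
  ⟨fun r hr => (h.f0 r hr).trans hδ, fun r hr => (h.f1 r hr).trans hδ,
    fun r hr => (h.g0 r hr).trans hδ, fun r hr => (h.g1 r hr).trans hδ⟩

/-- **`ExtJ -> Ext`**. -/
theorem ext_of_extJ {d K0 : ℕ} {K : ℕ → ℕ} {w R : ℕ → ℝ} {q : ℕ → ℝ → ℂ} {b : ℝ}
    (hK0 : 1 ≤ K0) (hK : ∃ mK : ℕ, ∀ m, mK ≤ m → K0 ≤ K m)
    (hR : ∃ R1 > 0, ∃ m0 : ℕ, ∀ m, m0 ≤ m → R1 ≤ R m ∧ R m + 1 ≤ b)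
    (h : ExtJ d K0 w R q) : Ext d K w R q b := by
  obtain ⟨R1, hR1, m0, hRm⟩ := hR
  obtain ⟨mK, hKm⟩ := hK
  intro l L0 η ε hη hε
  obtain ⟨cc, hcc, m1, hm1⟩ := h 1 (min η (1 / 2)) (lt_min hη (by norm_num))
  set η' := min η (1 / 2) with hη'
  have hη'0 : 0 < η' := lt_min hη (by norm_num)
  have hη'1 : η' ≤ η := min_le_left _ _
  have hη'2 : η' ≤ 1 / 2 := min_le_right _ _
  set A : ℝ := (R1 ^ l)⁻¹ * (1 + l / R1) with hA
  have hApos : 0 < A := by positivity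
  -- the exponential factor
  have hlim : Tendsto (fun m : ℕ => Real.exp (-(cc * m))) atTop (𝓝 0) := by
    refine Real.tendsto_exp_neg_atTop_nhds_zero.comp ?_
    exact tendsto_natCast_atTop_atTop.const_mul_atTop hcc
  obtain ⟨m2, hm2⟩ := Filter.eventually_atTop.1
    (hlim.eventually (gt_mem_nhds (show (0 : ℝ) < ε / A by positivity)))
  obtain ⟨m3, hm3⟩ := exists_nat_ge L0
  refine ⟨max (max m0 m1) (max (max m2 m3) (max mK 1)), fun m hm => ?_⟩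
  simp only [max_le_iff] at hm
  obtain ⟨⟨k0, k1⟩, ⟨k2, k3⟩, kK, k4⟩ := hm
  obtain ⟨hRa, hRb⟩ := hRm m k0
  intro lam lam0 hl hl0 hL hL0 F G φ γ c hF' hG' hφ' hγ' s0 s1
  have hF := radAdm_mono (hKm m kK) hF'
  have hG := radAdm_mono (hKm m kK) hG'
  have hφ := radAdm_mono (hKm m kK) hφ'
  have hγ := radAdm_mono (hKm m kK) hγ'
  have hmL : L0 ≤ (m : ℝ) ^ 1 := by
    rw [pow_one]; exact hm3.trans (by exact_mod_cast k3)
  obtain ⟨α, β, α0, β0, cc'⟩ := hm1 m k1 l lam lam0 hl hl0 (hL.trans hmL) (hL0.trans hmL)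
    F G φ γ c hF hG hφ hγ s0 s1
  have hexp : A * Real.exp (-(cc * m)) ≤ ε := by
    have := (hm2 m k2).le
    calc A * Real.exp (-(cc * m)) ≤ A * (ε / A) := by gcongr
      _ = ε := by field_simp
  have hn1 : Real.sqrt (H607.massN d φ γ (R m + 2 * η')) ≤ nrm d b φ γ :=
    massN_le_nrm hφ hγ (by linarith) (by linarith)
  have hn2 : Real.sqrt (H607.massN d F G (R m + 2 * η')) ≤ nrm d b F G :=
    massN_le_nrm hF hG (by linarith) (by linarith)
  have hsub : ∀ r ∈ Icc (R m + η) b, R1 ≤ r := fun r hr => by linarith [hr.1]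
  have hsub' : ∀ r ∈ Icc (R m + η) b, R m + η' ≤ r := fun r hr => by linarith [hr.1]
  have hdiff : ∀ {H : ℝ → ℂ}, RadAdm K0 H → ∀ r ∈ Icc (R m + η) b, DifferentiableAt ℝ H r := by
    intro H hH r hr
    have hr0 : 0 < r := hR1.trans_le (hsub r hr)
    exact (hH.smooth.contDiffAt (Ioi_mem_nhds hr0)).differentiableAt
      (by exact_mod_cast (Nat.one_le_iff_ne_zero.1 hK0))
  refine ⟨αS l (w m) (lam + aa m) (lam0 + aa m) α α0 c,
    βS l (w m) (lam + aa m) (lam0 + aa m) β β0 c, α0 * gE l (w m) (lam0 + aa m),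
    β0 * gEs l (w m) (lam0 + aa m), ?_, ?_⟩
  · have := extClose_of_J (d := d) (l := l) (w := w m) (x := lam0 + aa m) (x0 := lam0 + aa m)
      (F := φ) (G := γ) (s := Icc (R m + η) b) (ρ := R1)
      (δ := Real.exp (-(cc * m)) * Real.sqrt (H607.massN d φ γ (R m + 2 * η'))) (α := α0)
      (β := β0) (α0 := 0) (β0 := 0) (c := 0) (mem_HP0' k4 hl0) (mem_HP0' k4 hl0) hR1 hsub
      (hdiff hφ) (hdiff hγ) (fun r hr => (cc' r (hsub' r hr)).1.1)
      (fun r hr => (cc' r (hsub' r hr)).1.2) (fun r hr => (cc' r (hsub' r hr)).2.1.1)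
      (fun r hr => (cc' r (hsub' r hr)).2.1.2)
    rw [αS_zero, βS_zero, zero_mul, zero_mul] at this
    refine ExtClose.mono this ?_
    calc A * (Real.exp (-(cc * m)) * Real.sqrt (H607.massN d φ γ (R m + 2 * η')))
        = (A * Real.exp (-(cc * m))) * Real.sqrt (H607.massN d φ γ (R m + 2 * η')) := by ring
      _ ≤ ε * nrm d b φ γ := by gcongr
  · have := extClose_of_J (d := d) (l := l) (w := w m) (x := lam + aa m) (x0 := lam0 + aa m)
      (F := F) (G := G) (s := Icc (R m + η) b) (ρ := R1)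
      (δ := Real.exp (-(cc * m)) * (Real.sqrt (H607.massN d F G (R m + 2 * η')) +
        ‖c‖ * Real.sqrt (H607.massN d φ γ (R m + 2 * η'))))
      (α := α) (β := β) (α0 := α0) (β0 := β0) (c := c)
      (mem_HP0' k4 hl) (mem_HP0' k4 hl0) hR1 hsub (hdiff hF) (hdiff hG)
      (fun r hr => (cc' r (hsub' r hr)).2.2.1.1) (fun r hr => (cc' r (hsub' r hr)).2.2.1.2)
      (fun r hr => (cc' r (hsub' r hr)).2.2.2.1) (fun r hr => (cc' r (hsub' r hr)).2.2.2.2)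
    refine ExtClose.mono this ?_
    calc A * (Real.exp (-(cc * m)) * (Real.sqrt (H607.massN d F G (R m + 2 * η')) +
          ‖c‖ * Real.sqrt (H607.massN d φ γ (R m + 2 * η'))))
        = (A * Real.exp (-(cc * m))) * (Real.sqrt (H607.massN d F G (R m + 2 * η')) +
          ‖c‖ * Real.sqrt (H607.massN d φ γ (R m + 2 * η'))) := by ring
      _ ≤ ε * (nrm d b F G + ‖c‖ * nrm d b φ γ) := by gcongr

/-- `Ext` from the exterior block for a family satisfying `UP`. -/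
theorem UP.ext_of_extJ {d : ℕ} {B : Set (ℝ × ℝ)} {m0 : ℕ} {w R : ℕ → ℝ} {q : ℕ → ℝ → ℂ}
    (hUP : UP d B m0 w R q) {K0 : ℕ} (hK0 : 1 ≤ K0) {K : ℕ → ℕ}
    (hK : ∃ mK : ℕ, ∀ m, mK ≤ m → K0 ≤ K m) {b : ℝ} (hb : ∀ m, m0 ≤ m → R m + 1 ≤ b)
    (h : ExtJ d K0 w R q) : Ext d K w R q b := by
  obtain ⟨R1, hR1, R2, hR⟩ := hUP.Rbd
  exact H745.ext_of_extJ hK0 hK ⟨R1, hR1, m0, fun m hm => ⟨(hR m hm).1, hb m hm⟩⟩ h

end Vale.Agent.P139.H745
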