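import Vale.Agent.P139.KU.Dsl
import Vale.Agent.P139.KU.SlowR
import Vale.Agent.P139.H311.S2Spec

/-!
# The exterior model of block S2: continuity, radial derivative and the `J -> S` conversion
-/

noncomputable section

open MeasureTheory Set Filter Topology Complex ComplexConjugate

namespace Vale.Agent.P139.H745

open KU H311 BU

/-- half plane of admissible spectral parameters -/
def HP (l : ℕ) : Set ℂ := {z | -1 < z.re + l / 2}

lemma isOpen_HP (l : ℕ) : IsOpen (HP l) :=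
  isOpen_lt continuous_const (Complex.continuous_re.add continuous_const)

section dsl

variable {d l : ℕ} {w r : ℝ} {x x0 : ℂ}

lemma continuousAt_dslope_F0 (hx : x ∈ HP l) (hx0 : x0 ∈ HP l) (hr : 0 < r) :
    ContinuousAt (fun p : (ℝ × ℝ) × ℂ × ℂ =>
      dslope (fun y => F0 d l p.1.1 y p.1.2) p.2.1 p.2.2) ((w, r), x0, x) := by
  refine continuousAt_dslope_family (X := ℝ × ℝ) (f := fun q y => F0 d l q.1 y q.2)
    (isOpen_HP l) hx0 hx ?_ ?_
  · have : ∀ᶠ q : ℝ × ℝ in 𝓝 (w, r), 0 < q.2 :=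
      (continuous_snd.tendsto (w, r)).eventually (lt_mem_nhds hr)
    filter_upwards [this] with q hq z hz
    exact (differentiableAt_F0 (d := d) (l := l) (w := q.1) hz hq).differentiableWithinAt
  · intro z hz
    exact continuousAt_F0 (X := (ℝ × ℝ) × ℂ) (w := fun q => q.1.1) (r := fun q => q.1.2)
      (lam := fun q => q.2) (x := ((w, r), z)) hz hr (by fun_prop) (by fun_prop) (by fun_prop)

lemma continuousAt_dslope_F0' (hx : x ∈ HP l) (hx0 : x0 ∈ HP l) (hr : 0 < r) :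
    ContinuousAt (fun p : (ℝ × ℝ) × ℂ × ℂ =>
      dslope (fun y => F0' d l p.1.1 y p.1.2) p.2.1 p.2.2) ((w, r), x0, x) := by
  refine continuousAt_dslope_family (X := ℝ × ℝ) (f := fun q y => F0' d l q.1 y q.2)
    (isOpen_HP l) hx0 hx ?_ ?_
  · have : ∀ᶠ q : ℝ × ℝ in 𝓝 (w, r), 0 < q.2 :=
      (continuous_snd.tendsto (w, r)).eventually (lt_mem_nhds hr)
    filter_upwards [this] with q hq z hz
    exact (differentiableAt_F0' (d := d) (l := l) (w := q.1) hz hq).differentiableWithinAt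
  · intro z hz
    exact continuousAt_F0' (X := (ℝ × ℝ) × ℂ) (w := fun q => q.1.1) (r := fun q => q.1.2)
      (lam := fun q => q.2) (x := ((w, r), z)) hz hr (by fun_prop) (by fun_prop) (by fun_prop)

lemma continuousAt_dslope_F0s (hx : x ∈ HP l) (hx0 : x0 ∈ HP l) (hr : 0 < r) :
    ContinuousAt (fun p : (ℝ × ℝ) × ℂ × ℂ =>
      dslope (fun y => F0s d l p.1.1 y p.1.2) p.2.1 p.2.2) ((w, r), x0, x) := by
  refine continuousAt_dslope_family (X := ℝ × ℝ) (f := fun q y => F0s d l q.1 y q.2)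
    (isOpen_HP l) hx0 hx ?_ ?_
  · have : ∀ᶠ q : ℝ × ℝ in 𝓝 (w, r), 0 < q.2 :=
      (continuous_snd.tendsto (w, r)).eventually (lt_mem_nhds hr)
    filter_upwards [this] with q hq z hz
    exact (differentiableAt_F0s (d := d) (l := l) (w := q.1) hz hq).differentiableWithinAt
  · intro z hz
    exact continuousAt_F0s (X := (ℝ × ℝ) × ℂ) (w := fun q => q.1.1) (r := fun q => q.1.2)
      (lam := fun q => q.2) (x := ((w, r), z)) hz hr (by fun_prop) (by fun_prop) (by fun_prop)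

lemma continuousAt_dslope_F0s' (hx : x ∈ HP l) (hx0 : x0 ∈ HP l) (hr : 0 < r) :
    ContinuousAt (fun p : (ℝ × ℝ) × ℂ × ℂ =>
      dslope (fun y => F0s' d l p.1.1 y p.1.2) p.2.1 p.2.2) ((w, r), x0, x) := by
  refine continuousAt_dslope_family (X := ℝ × ℝ) (f := fun q y => F0s' d l q.1 y q.2)
    (isOpen_HP l) hx0 hx ?_ ?_
  · have : ∀ᶠ q : ℝ × ℝ in 𝓝 (w, r), 0 < q.2 :=
      (continuous_snd.tendsto (w, r)).eventually (lt_mem_nhds hr)
    filter_upwards [this] with q hq z hz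
    exact (differentiableAt_F0s' (d := d) (l := l) (w := q.1) hz hq).differentiableWithinAt
  · intro z hz
    exact continuousAt_F0s' (X := (ℝ × ℝ) × ℂ) (w := fun q => q.1.1) (r := fun q => q.1.2)
      (lam := fun q => q.2) (x := ((w, r), z)) hz hr (by fun_prop) (by fun_prop) (by fun_prop)

theorem hasDerivAt_dslope_F0 (hx : x ∈ HP l) (hx0 : x0 ∈ HP l) (hr : 0 < r) :
    HasDerivAt (fun r => dslope (fun y => F0 d l w y r) x0 x)
      (dslope (fun y => F0' d l w y r) x0 x) r := by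
  refine hasDerivAt_dslope_family (f := fun r y => F0 d l w y r) (f' := fun r y => F0' d l w y r)
    (isOpen_HP l) (s := Ioi 0) isOpen_Ioi ?_ ?_ ?_ ?_ ?_ hx0 hx hr
  · intro t ht z hz
    exact (differentiableAt_F0 (d := d) (l := l) (w := w) hz ht).differentiableWithinAt
  · intro t ht z hz
    exact (differentiableAt_F0' (d := d) (l := l) (w := w) hz ht).differentiableWithinAt
  · intro t ht z hz
    exact continuousAt_F0 (X := ℝ × ℂ) (w := fun _ => w) (r := fun q => q.1)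
      (lam := fun q => q.2) (x := (t, z)) hz ht (by fun_prop) (by fun_prop) (by fun_prop)
  · intro t ht z hz
    exact continuousAt_F0' (X := ℝ × ℂ) (w := fun _ => w) (r := fun q => q.1)
      (lam := fun q => q.2) (x := (t, z)) hz ht (by fun_prop) (by fun_prop) (by fun_prop)
  · intro t ht z hz
    exact hasDerivAt_F0 hz ht

theorem hasDerivAt_dslope_F0s (hx : x ∈ HP l) (hx0 : x0 ∈ HP l) (hr : 0 < r) :
    HasDerivAt (fun r => dslope (fun y => F0s d l w y r) x0 x)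
      (dslope (fun y => F0s' d l w y r) x0 x) r := by
  refine hasDerivAt_dslope_family (f := fun r y => F0s d l w y r)
    (f' := fun r y => F0s' d l w y r)
    (isOpen_HP l) (s := Ioi 0) isOpen_Ioi ?_ ?_ ?_ ?_ ?_ hx0 hx hr
  · intro t ht z hz
    exact (differentiableAt_F0s (d := d) (l := l) (w := w) hz ht).differentiableWithinAt
  · intro t ht z hz
    exact (differentiableAt_F0s' (d := d) (l := l) (w := w) hz ht).differentiableWithinAt
  · intro t ht z hz
    exact continuousAt_F0s (X := ℝ × ℂ) (w := fun _ => w) (r := fun q => q.1)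
      (lam := fun q => q.2) (x := (t, z)) hz ht (by fun_prop) (by fun_prop) (by fun_prop)
  · intro t ht z hz
    exact continuousAt_F0s' (X := ℝ × ℂ) (w := fun _ => w) (r := fun q => q.1)
      (lam := fun q => q.2) (x := (t, z)) hz ht (by fun_prop) (by fun_prop) (by fun_prop)
  · intro t ht z hz
    exact hasDerivAt_F0s hz ht

/-- `extF'` is the radial derivative of `extF`. -/
theorem hasDerivAt_extF (hx : x ∈ HP l) (hx0 : x0 ∈ HP l) (α α0 c : ℂ) (hr : 0 < r) :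
    HasDerivAt (extF d l w x x0 α α0 c) (extF' d l w x x0 α α0 c r) r :=
  ((hasDerivAt_F0 hx hr).const_mul α).add ((hasDerivAt_dslope_F0 hx hx0 hr).const_mul (c * α0))

/-- `extG'` is the radial derivative of `extG`. -/
theorem hasDerivAt_extG (hx : x ∈ HP l) (hx0 : x0 ∈ HP l) (β β0 c : ℂ) (hr : 0 < r) :
    HasDerivAt (extG d l w x x0 β β0 c) (extG' d l w x x0 β β0 c r) r :=
  ((hasDerivAt_F0s hx hr).const_mul β).add ((hasDerivAt_dslope_F0s hx hx0 hr).const_mul (c * β0))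

end dsl

section limits

variable {ι : Type*} {L : Filter ι} {d l : ℕ} {w r : ℝ} {x x0 α α0 c : ℂ} {wj rj : ι → ℝ}
  {xj x0j αj α0j cj : ι → ℂ}

lemma tendsto_pack (hw : Tendsto wj L (𝓝 w)) (hrj : Tendsto rj L (𝓝 r))
    (hx : Tendsto xj L (𝓝 x)) (hx0 : Tendsto x0j L (𝓝 x0)) :
    Tendsto (fun j => ((wj j, rj j), x0j j, xj j)) L (𝓝 ((w, r), x0, x)) :=
  (hw.prodMk_nhds hrj).prodMk_nhds (hx0.prodMk_nhds hx)

/-- Joint continuity of the exterior model. -/
theorem tendsto_extF (hx : x ∈ HP l) (hx0 : x0 ∈ HP l) (hr : 0 < r)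
    (tw : Tendsto wj L (𝓝 w)) (tr : Tendsto rj L (𝓝 r)) (tx : Tendsto xj L (𝓝 x))
    (tx0 : Tendsto x0j L (𝓝 x0)) (tα : Tendsto αj L (𝓝 α)) (tα0 : Tendsto α0j L (𝓝 α0))
    (tc : Tendsto cj L (𝓝 c)) :
    Tendsto (fun j => extF d l (wj j) (xj j) (x0j j) (αj j) (α0j j) (cj j) (rj j)) L
      (𝓝 (extF d l w x x0 α α0 c r)) := by
  have h1 : Tendsto (fun j => F0 d l (wj j) (xj j) (rj j)) L (𝓝 (F0 d l w x r)) := by
    have h := continuousAt_F0 (X := ℝ × ℂ × ℝ) (d := d) (l := l) (w := fun q => q.1)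
      (lam := fun q => q.2.1) (r := fun q => q.2.2) (x := (w, x, r)) hx hr (by fun_prop)
      (by fun_prop) (by fun_prop)
    exact Filter.Tendsto.comp (g := fun q : ℝ × ℂ × ℝ => F0 d l q.1 q.2.1 q.2.2)
      (f := fun j => (wj j, xj j, rj j)) h (tw.prodMk_nhds (tx.prodMk_nhds tr))
  have h2 : Tendsto (fun j => dslope (fun y => F0 d l (wj j) y (rj j)) (x0j j) (xj j)) L
      (𝓝 (dslope (fun y => F0 d l w y r) x0 x)) :=
    Filter.Tendsto.comp (g := fun p : (ℝ × ℝ) × ℂ × ℂ =>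
      dslope (fun y => F0 d l p.1.1 y p.1.2) p.2.1 p.2.2)
      (f := fun j => ((wj j, rj j), x0j j, xj j)) (continuousAt_dslope_F0 hx hx0 hr)
      (tendsto_pack tw tr tx tx0)
  unfold extF
  exact (tα.mul h1).add ((tc.mul tα0).mul h2)

theorem tendsto_extF' (hx : x ∈ HP l) (hx0 : x0 ∈ HP l) (hr : 0 < r)
    (tw : Tendsto wj L (𝓝 w)) (tr : Tendsto rj L (𝓝 r)) (tx : Tendsto xj L (𝓝 x))
    (tx0 : Tendsto x0j L (𝓝 x0)) (tα : Tendsto αj L (𝓝 α)) (tα0 : Tendsto α0j L (𝓝 α0))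
    (tc : Tendsto cj L (𝓝 c)) :
    Tendsto (fun j => extF' d l (wj j) (xj j) (x0j j) (αj j) (α0j j) (cj j) (rj j)) L
      (𝓝 (extF' d l w x x0 α α0 c r)) := by
  have h1 : Tendsto (fun j => F0' d l (wj j) (xj j) (rj j)) L (𝓝 (F0' d l w x r)) := by
    have h := continuousAt_F0' (X := ℝ × ℂ × ℝ) (d := d) (l := l) (w := fun q => q.1)
      (lam := fun q => q.2.1) (r := fun q => q.2.2) (x := (w, x, r)) hx hr (by fun_prop)
      (by fun_prop) (by fun_prop)
    exact Filter.Tendsto.comp (g := fun q : ℝ × ℂ × ℝ => F0' d l q.1 q.2.1 q.2.2)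
      (f := fun j => (wj j, xj j, rj j)) h (tw.prodMk_nhds (tx.prodMk_nhds tr))
  have h2 : Tendsto (fun j => dslope (fun y => F0' d l (wj j) y (rj j)) (x0j j) (xj j)) L
      (𝓝 (dslope (fun y => F0' d l w y r) x0 x)) :=
    Filter.Tendsto.comp (g := fun p : (ℝ × ℝ) × ℂ × ℂ =>
      dslope (fun y => F0' d l p.1.1 y p.1.2) p.2.1 p.2.2)
      (f := fun j => ((wj j, rj j), x0j j, xj j)) (continuousAt_dslope_F0' hx hx0 hr)
      (tendsto_pack tw tr tx tx0)
  unfold extF'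
  exact (tα.mul h1).add ((tc.mul tα0).mul h2)

theorem tendsto_extG (hx : x ∈ HP l) (hx0 : x0 ∈ HP l) (hr : 0 < r)
    (tw : Tendsto wj L (𝓝 w)) (tr : Tendsto rj L (𝓝 r)) (tx : Tendsto xj L (𝓝 x))
    (tx0 : Tendsto x0j L (𝓝 x0)) (tα : Tendsto αj L (𝓝 α)) (tα0 : Tendsto α0j L (𝓝 α0))
    (tc : Tendsto cj L (𝓝 c)) :
    Tendsto (fun j => extG d l (wj j) (xj j) (x0j j) (αj j) (α0j j) (cj j) (rj j)) L
      (𝓝 (extG d l w x x0 α α0 c r)) := by
  have h1 : Tendsto (fun j => F0s d l (wj j) (xj j) (rj j)) L (𝓝 (F0s d l w x r)) := by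
    have h := continuousAt_F0s (X := ℝ × ℂ × ℝ) (d := d) (l := l) (w := fun q => q.1)
      (lam := fun q => q.2.1) (r := fun q => q.2.2) (x := (w, x, r)) hx hr (by fun_prop)
      (by fun_prop) (by fun_prop)
    exact Filter.Tendsto.comp (g := fun q : ℝ × ℂ × ℝ => F0s d l q.1 q.2.1 q.2.2)
      (f := fun j => (wj j, xj j, rj j)) h (tw.prodMk_nhds (tx.prodMk_nhds tr))
  have h2 : Tendsto (fun j => dslope (fun y => F0s d l (wj j) y (rj j)) (x0j j) (xj j)) L
      (𝓝 (dslope (fun y => F0s d l w y r) x0 x)) :=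
    Filter.Tendsto.comp (g := fun p : (ℝ × ℝ) × ℂ × ℂ =>
      dslope (fun y => F0s d l p.1.1 y p.1.2) p.2.1 p.2.2)
      (f := fun j => ((wj j, rj j), x0j j, xj j)) (continuousAt_dslope_F0s hx hx0 hr)
      (tendsto_pack tw tr tx tx0)
  unfold extG
  exact (tα.mul h1).add ((tc.mul tα0).mul h2)

theorem tendsto_extG' (hx : x ∈ HP l) (hx0 : x0 ∈ HP l) (hr : 0 < r)
    (tw : Tendsto wj L (𝓝 w)) (tr : Tendsto rj L (𝓝 r)) (tx : Tendsto xj L (𝓝 x))
    (tx0 : Tendsto x0j L (𝓝 x0)) (tα : Tendsto αj L (𝓝 α)) (tα0 : Tendsto α0j L (𝓝 α0))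
    (tc : Tendsto cj L (𝓝 c)) :
    Tendsto (fun j => extG' d l (wj j) (xj j) (x0j j) (αj j) (α0j j) (cj j) (rj j)) L
      (𝓝 (extG' d l w x x0 α α0 c r)) := by
  have h1 : Tendsto (fun j => F0s' d l (wj j) (xj j) (rj j)) L (𝓝 (F0s' d l w x r)) := by
    have h := continuousAt_F0s' (X := ℝ × ℂ × ℝ) (d := d) (l := l) (w := fun q => q.1)
      (lam := fun q => q.2.1) (r := fun q => q.2.2) (x := (w, x, r)) hx hr (by fun_prop)
      (by fun_prop) (by fun_prop)
    exact Filter.Tendsto.comp (g := fun q : ℝ × ℂ × ℝ => F0s' d l q.1 q.2.1 q.2.2)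
      (f := fun j => (wj j, xj j, rj j)) h (tw.prodMk_nhds (tx.prodMk_nhds tr))
  have h2 : Tendsto (fun j => dslope (fun y => F0s' d l (wj j) y (rj j)) (x0j j) (xj j)) L
      (𝓝 (dslope (fun y => F0s' d l w y r) x0 x)) :=
    Filter.Tendsto.comp (g := fun p : (ℝ × ℝ) × ℂ × ℂ =>
      dslope (fun y => F0s' d l p.1.1 y p.1.2) p.2.1 p.2.2)
      (f := fun j => ((wj j, rj j), x0j j, xj j)) (continuousAt_dslope_F0s' hx hx0 hr)
      (tendsto_pack tw tr tx tx0)
  unfold extG'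
  exact (tα.mul h1).add ((tc.mul tα0).mul h2)

end limits

end Vale.Agent.P139.H745
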