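import Vale.Agent.P139.H745.JS

/-!
# The `J -> S` conversion of the exterior model

`PhJ d l w x = Phi l a (b - a - 1)`, `a = aE l w x`, `b = bE d l`, is the free slow solution in
the `J` normalisation (with the factor `r^l`), `PhJs` its Schwarz reflection.
-/

noncomputable section

open MeasureTheory Set Filter Topology Complex ComplexConjugate

namespace Vale.Agent.P139.H745

open KU H311 BU

/-- Free slow solution in the `J` normalisation; `x = lam + aa m`. -/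
def PhJ (d l : ℕ) (w : ℝ) (x : ℂ) : ℝ → ℂ := Phi l (aE l w x) (bE d l - aE l w x - 1)

/-- Its Schwarz reflection. -/
def PhJs (d l : ℕ) (w : ℝ) (x : ℂ) (r : ℝ) : ℂ := conj (PhJ d l w (conj x) r)

/-- The normalising factor. -/
def gE (l : ℕ) (w : ℝ) (x : ℂ) : ℂ := Complex.Gamma (aE l w x)

/-- The reflected normalising factor. -/
def gEs (l : ℕ) (w : ℝ) (x : ℂ) : ℂ := conj (gE l w (conj x))

/-- half plane where the `J` normalisation is available -/
def HP0 (l : ℕ) : Set ℂ := {z | 0 < z.re + l / 2}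

lemma isOpen_HP0 (l : ℕ) : IsOpen (HP0 l) :=
  isOpen_lt continuous_const (Complex.continuous_re.add continuous_const)

lemma HP0_subset (l : ℕ) : HP0 l ⊆ HP l := fun z hz => by
  have : 0 < z.re + l / 2 := hz
  show -1 < z.re + l / 2
  linarith

lemma conj_mem_HP0 {l : ℕ} {x : ℂ} (hx : x ∈ HP0 l) : conj x ∈ HP0 l := by
  have : 0 < x.re + l / 2 := hx
  show 0 < (conj x).re + l / 2
  simpa using this

section

variable {d l : ℕ} {w r : ℝ} {x x0 : ℂ}

lemma PhJ_eq (hx : x ∈ HP0 l) (hr : 0 < r) :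
    PhJ d l w x r = (r : ℂ) ^ l * (gE l w x * F0 d l w x r) := by
  have ha : 0 < (aE l w x).re := by rw [aE_re]; exact hx
  have hG : Complex.Gamma (aE l w x) ≠ 0 := Complex.Gamma_ne_zero_of_re_pos ha
  simp only [PhJ, Phi_apply, gE, F0, G]
  rw [S_eq_of_pos _ ha (rho_pos hr)]
  field_simp

lemma PhJs_eq (hx : x ∈ HP0 l) (hr : 0 < r) :
    PhJs d l w x r = (r : ℂ) ^ l * (gEs l w x * F0s d l w x r) := by
  rw [PhJs, PhJ_eq (conj_mem_HP0 hx) hr]
  simp only [gEs, F0s, map_mul, map_pow, Complex.conj_ofReal]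

lemma differentiableAt_gE (hx : x ∈ HP0 l) : DifferentiableAt ℂ (gE l w) x := by
  have ha : 0 < (aE l w x).re := by rw [aE_re]; exact hx
  have h1 : DifferentiableAt ℂ Complex.Gamma (aE l w x) := by
    refine Complex.differentiableAt_Gamma _ fun m hm => ?_
    rw [hm] at ha
    simp at ha
    have : (0 : ℝ) ≤ m := Nat.cast_nonneg m
    linarith
  have h2 : DifferentiableAt ℂ (aE l w) x := by unfold aE; fun_prop
  exact DifferentiableAt.comp x h1 h2

lemma differentiableAt_gEs (hx : x ∈ HP0 l) : DifferentiableAt ℂ (gEs l w) x := by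
  have := differentiableAt_gE (l := l) (w := w) (x := conj x) (conj_mem_HP0 hx)
  have h2 := this.conj_conj
  rw [Complex.conj_conj] at h2
  exact h2

/-- Divided differences only depend on the function near the two points. -/
lemma dslope_congr_on {f g : ℂ → ℂ} {U : Set ℂ} (hU : IsOpen U) (h : EqOn f g U) (hx : x ∈ U)
    (hx0 : x0 ∈ U) : dslope f x0 x = dslope g x0 x := by
  by_cases hne : x = x0
  · subst hne
    rw [dslope_same, dslope_same]
    exact Filter.EventuallyEq.deriv_eq (h.eventuallyEq_of_mem (hU.mem_nhds hx))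
  · simp only [dslope_of_ne _ hne, slope_def_module, h hx, h hx0]

lemma dslope_PhJ (hx : x ∈ HP0 l) (hx0 : x0 ∈ HP0 l) (hr : 0 < r) :
    dslope (fun y => PhJ d l w y r) x0 x = (r : ℂ) ^ l *
      (dslope (gE l w) x0 x * F0 d l w x r +
        gE l w x0 * dslope (fun y => F0 d l w y r) x0 x) := by
  rw [dslope_congr_on (g := fun y => (r : ℂ) ^ l * (gE l w y * F0 d l w y r)) (isOpen_HP0 l)
    (fun y hy => PhJ_eq hy hr) hx hx0, dslope_const_mul,
    dslope_mul' (differentiableAt_gE hx0) (differentiableAt_F0 (HP0_subset l hx0) hr)]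

lemma dslope_PhJs (hx : x ∈ HP0 l) (hx0 : x0 ∈ HP0 l) (hr : 0 < r) :
    dslope (fun y => PhJs d l w y r) x0 x = (r : ℂ) ^ l *
      (dslope (gEs l w) x0 x * F0s d l w x r +
        gEs l w x0 * dslope (fun y => F0s d l w y r) x0 x) := by
  rw [dslope_congr_on (g := fun y => (r : ℂ) ^ l * (gEs l w y * F0s d l w y r)) (isOpen_HP0 l)
    (fun y hy => PhJs_eq hy hr) hx hx0, dslope_const_mul,
    dslope_mul' (differentiableAt_gEs hx0) (differentiableAt_F0s (HP0_subset l hx0) hr)]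

/-- Exterior model in the `J` normalisation, first component. -/
def mJ (d l : ℕ) (w : ℝ) (x x0 α α0 c : ℂ) (r : ℝ) : ℂ :=
  α * PhJ d l w x r + c * α0 * dslope (fun y => PhJ d l w y r) x0 x

/-- Exterior model in the `J` normalisation, second component. -/
def mJs (d l : ℕ) (w : ℝ) (x x0 β β0 c : ℂ) (r : ℝ) : ℂ :=
  β * PhJs d l w x r + c * β0 * dslope (fun y => PhJs d l w y r) x0 x

/-- `S`-coefficient of the model, first component. -/
def αS (l : ℕ) (w : ℝ) (x x0 α α0 c : ℂ) : ℂ := α * gE l w x + c * α0 * dslope (gE l w) x0 x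

/-- `S`-coefficient of the model, second component. -/
def βS (l : ℕ) (w : ℝ) (x x0 β β0 c : ℂ) : ℂ := β * gEs l w x + c * β0 * dslope (gEs l w) x0 x

/-- **J -> S**, first component. -/
theorem mJ_eq (hx : x ∈ HP0 l) (hx0 : x0 ∈ HP0 l) (hr : 0 < r) (α α0 c : ℂ) :
    mJ d l w x x0 α α0 c r = (r : ℂ) ^ l *
      extF d l w x x0 (αS l w x x0 α α0 c) (α0 * gE l w x0) c r := by
  simp only [mJ, extF, αS, dslope_PhJ hx hx0 hr, PhJ_eq hx hr]
  ring

/-- **J -> S**, second component. -/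
theorem mJs_eq (hx : x ∈ HP0 l) (hx0 : x0 ∈ HP0 l) (hr : 0 < r) (β β0 c : ℂ) :
    mJs d l w x x0 β β0 c r = (r : ℂ) ^ l *
      extG d l w x x0 (βS l w x x0 β β0 c) (β0 * gEs l w x0) c r := by
  simp only [mJs, extG, βS, dslope_PhJs hx hx0 hr, PhJs_eq hx hr]
  ring

lemma αS_zero (α α0 : ℂ) : αS l w x x0 α α0 0 = α * gE l w x := by simp [αS]

lemma βS_zero (β β0 : ℂ) : βS l w x x0 β β0 0 = β * gEs l w x := by simp [βS]

/-- The second component is the reflection of the first. -/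
theorem conj_mJ (α α0 c : ℂ) :
    conj (mJ d l w (conj x) (conj x0) (conj α) (conj α0) (conj c) r) =
      mJs d l w x x0 α α0 c r := by
  have h : dslope (fun y => PhJs d l w y r) x0 x =
      conj (dslope (fun y => PhJ d l w y r) (conj x0) (conj x)) :=
    dslope_conj_conj (f := fun y => PhJ d l w y r)
  rw [mJs, h]
  simp only [mJ, map_add, map_mul, Complex.conj_conj, PhJs]

/-- The diagonal divided difference is the parameter derivative. -/
theorem dslope_PhJ_self (hx : x ∈ HP0 l) (hr : 0 < r) :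
    dslope (fun y => PhJ d l w y r) x x = dPhi l (aE l w x) (bE d l - aE l w x - 1) r := by
  rw [dslope_same]
  have ha : 0 < (aE l w x).re := by rw [aE_re]; exact hx
  have h := hasDerivAt_J_param (bE d l - aE l w x - 1) ha (rho_pos hr)
  have h2 : HasDerivAt (fun y : ℂ => y - x) 1 x := (hasDerivAt_id x).sub_const x
  have h3 : HasDerivAt (fun y : ℂ => J (aE l w x + (y - x)) (bE d l - aE l w x - 1 - (y - x))
      ((r ^ 2 / 4 : ℝ) : ℂ)) (dJ (aE l w x) (bE d l - aE l w x - 1) ((r ^ 2 / 4 : ℝ) : ℂ) * 1) x :=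
    HasDerivAt.comp_of_eq x h h2 (by simp)
  have h4 := h3.const_mul ((r : ℂ) ^ l)
  rw [mul_one] at h4
  refine HasDerivAt.deriv (h4.congr_of_eventuallyEq (Eventually.of_forall fun y => ?_))
  simp only [PhJ, Phi_apply]
  rw [show aE l w x + (y - x) = aE l w y by unfold aE; ring,
    show bE d l - aE l w x - 1 - (y - x) = bE d l - aE l w y - 1 by unfold aE; ring]

/-- radial derivative of the `J` model divided by `r^l` -/
theorem hasDerivAt_mJ_div (hx : x ∈ HP0 l) (hx0 : x0 ∈ HP0 l) (hr : 0 < r) (α α0 c : ℂ) :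
    HasDerivAt (fun t : ℝ => mJ d l w x x0 α α0 c t / (t : ℂ) ^ l)
      (extF' d l w x x0 (αS l w x x0 α α0 c) (α0 * gE l w x0) c r) r := by
  refine (hasDerivAt_extF (d := d) (w := w) (HP0_subset l hx) (HP0_subset l hx0)
    (αS l w x x0 α α0 c) (α0 * gE l w x0) c hr).congr_of_eventuallyEq ?_
  filter_upwards [Ioi_mem_nhds hr] with t ht
  have ht0 : (t : ℂ) ≠ 0 := by
    have : (0 : ℝ) < t := ht
    exact_mod_cast this.ne'
  rw [mJ_eq hx hx0 ht]
  field_simp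

theorem hasDerivAt_mJs_div (hx : x ∈ HP0 l) (hx0 : x0 ∈ HP0 l) (hr : 0 < r) (β β0 c : ℂ) :
    HasDerivAt (fun t : ℝ => mJs d l w x x0 β β0 c t / (t : ℂ) ^ l)
      (extG' d l w x x0 (βS l w x x0 β β0 c) (β0 * gEs l w x0) c r) r := by
  refine (hasDerivAt_extG (d := d) (w := w) (HP0_subset l hx) (HP0_subset l hx0)
    (βS l w x x0 β β0 c) (β0 * gEs l w x0) c hr).congr_of_eventuallyEq ?_
  filter_upwards [Ioi_mem_nhds hr] with t ht
  have ht0 : (t : ℂ) ≠ 0 := by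
    have : (0 : ℝ) < t := ht
    exact_mod_cast this.ne'
  rw [mJs_eq hx hx0 ht]
  field_simp

lemma hasDerivAt_mJ (hx : x ∈ HP0 l) (hx0 : x0 ∈ HP0 l) (hr : 0 < r) (α α0 c : ℂ) :
    HasDerivAt (mJ d l w x x0 α α0 c)
      ((l : ℂ) * (r : ℂ) ^ (l - 1) *
          extF d l w x x0 (αS l w x x0 α α0 c) (α0 * gE l w x0) c r +
        (r : ℂ) ^ l * extF' d l w x x0 (αS l w x x0 α α0 c) (α0 * gE l w x0) c r) r := by
  have h1 : HasDerivAt (fun t : ℝ => (t : ℂ) ^ l) ((l : ℂ) * (r : ℂ) ^ (l - 1)) r :=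
    (hasDerivAt_pow l (r : ℂ)).comp_ofReal
  refine (h1.mul (hasDerivAt_extF (d := d) (w := w) (HP0_subset l hx) (HP0_subset l hx0)
    (αS l w x x0 α α0 c) (α0 * gE l w x0) c hr)).congr_of_eventuallyEq ?_
  filter_upwards [Ioi_mem_nhds hr] with t ht
  exact mJ_eq hx hx0 ht α α0 c

lemma hasDerivAt_mJs (hx : x ∈ HP0 l) (hx0 : x0 ∈ HP0 l) (hr : 0 < r) (β β0 c : ℂ) :
    HasDerivAt (mJs d l w x x0 β β0 c)
      ((l : ℂ) * (r : ℂ) ^ (l - 1) *
          extG d l w x x0 (βS l w x x0 β β0 c) (β0 * gEs l w x0) c r +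
        (r : ℂ) ^ l * extG' d l w x x0 (βS l w x x0 β β0 c) (β0 * gEs l w x0) c r) r := by
  have h1 : HasDerivAt (fun t : ℝ => (t : ℂ) ^ l) ((l : ℂ) * (r : ℂ) ^ (l - 1)) r :=
    (hasDerivAt_pow l (r : ℂ)).comp_ofReal
  refine (h1.mul (hasDerivAt_extG (d := d) (w := w) (HP0_subset l hx) (HP0_subset l hx0)
    (βS l w x x0 β β0 c) (β0 * gEs l w x0) c hr)).congr_of_eventuallyEq ?_
  filter_upwards [Ioi_mem_nhds hr] with t ht
  exact mJs_eq hx hx0 ht β β0 c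

/-- Quotient estimate: `C¹` closeness with the factor `r^l` gives `C¹` closeness without it. -/
lemma div_pow_close {F M : ℝ → ℂ} {E E' : ℂ} {M' F' : ℂ} {ρ δ : ℝ} (hρ : 0 < ρ) (hr : ρ ≤ r)
    (hF : HasDerivAt F F' r) (hM : M r = (r : ℂ) ^ l * E)
    (hM' : M' = (l : ℂ) * (r : ℂ) ^ (l - 1) * E + (r : ℂ) ^ l * E')
    (h0 : ‖F r - M r‖ ≤ δ) (h1 : ‖F' - M'‖ ≤ δ) :
    ‖F r / (r : ℂ) ^ l - E‖ ≤ (ρ ^ l)⁻¹ * (1 + l / ρ) * δ ∧
      ‖deriv (fun t : ℝ => F t / (t : ℂ) ^ l) r - E'‖ ≤ (ρ ^ l)⁻¹ * (1 + l / ρ) * δ := by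
  have hr0 : 0 < r := hρ.trans_le hr
  have hrc : (r : ℂ) ≠ 0 := by exact_mod_cast hr0.ne'
  have hδ : 0 ≤ δ := (norm_nonneg _).trans h0
  have hpow : (ρ ^ l : ℝ) ≤ r ^ l := by gcongr
  have hpos : 0 < ρ ^ l := by positivity
  have hl : (0 : ℝ) ≤ l := Nat.cast_nonneg l
  have hn : ‖((r : ℂ) ^ l)‖ = r ^ l := by
    rw [norm_pow, Complex.norm_real, Real.norm_of_nonneg hr0.le]
  have b0 : ‖F r / (r : ℂ) ^ l - E‖ ≤ (ρ ^ l)⁻¹ * δ := by
    have e : F r / (r : ℂ) ^ l - E = (F r - M r) / (r : ℂ) ^ l := by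
      rw [hM]; field_simp
    rw [e, norm_div, hn, div_eq_inv_mul]
    gcongr
  constructor
  · refine b0.trans ?_
    have : (1 : ℝ) ≤ 1 + l / ρ := by
      have : 0 ≤ (l : ℝ) / ρ := by positivity
      linarith
    calc (ρ ^ l)⁻¹ * δ = (ρ ^ l)⁻¹ * 1 * δ := by ring
      _ ≤ _ := by gcongr
  · have hp : HasDerivAt (fun t : ℝ => (t : ℂ) ^ l) ((l : ℂ) * (r : ℂ) ^ (l - 1)) r :=
      (hasDerivAt_pow l (r : ℂ)).comp_ofReal
    have hd := hF.div hp (pow_ne_zero l hrc)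
    have hd' : deriv (fun t : ℝ => F t / (t : ℂ) ^ l) r = (F' * (r : ℂ) ^ l -
        F r * ((l : ℂ) * (r : ℂ) ^ (l - 1))) / ((r : ℂ) ^ l) ^ 2 := hd.deriv
    have hlr : (l : ℂ) * (r : ℂ) ^ (l - 1) = (l / r : ℂ) * (r : ℂ) ^ l := by
      rcases Nat.eq_zero_or_pos l with h | h
      · subst h; simp
      · obtain ⟨k, rfl⟩ : ∃ k, l = k + 1 := ⟨l - 1, by omega⟩
        rw [Nat.add_sub_cancel, pow_succ]
        field_simp
    have e : deriv (fun t : ℝ => F t / (t : ℂ) ^ l) r - E' =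
        (F' - M') / (r : ℂ) ^ l - (l / r : ℂ) * (F r / (r : ℂ) ^ l - E) := by
      rw [hd', hM', hlr]
      field_simp
      ring
    rw [e]
    have hlr2 : ‖(l / r : ℂ)‖ ≤ l / ρ := by
      rw [norm_div, Complex.norm_natCast, Complex.norm_real, Real.norm_of_nonneg hr0.le]
      gcongr
    calc ‖(F' - M') / (r : ℂ) ^ l - (l / r : ℂ) * (F r / (r : ℂ) ^ l - E)‖
        ≤ ‖(F' - M') / (r : ℂ) ^ l‖ + ‖(l / r : ℂ) * (F r / (r : ℂ) ^ l - E)‖ := norm_sub_le _ _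
      _ ≤ (ρ ^ l)⁻¹ * δ + (l / ρ) * ((ρ ^ l)⁻¹ * δ) := by
          rw [norm_div, hn, div_eq_inv_mul, norm_mul]
          gcongr
      _ = _ := by ring

/-- **J -> S for `ExtClose`.**  If a pair is `C¹`-close to the exterior model in the `J`
normalisation (with the factor `r^l`) on `s ⊆ [ρ,∞)`, then it is `ExtClose` with the converted
coefficients. -/
theorem extClose_of_J {F G : ℝ → ℂ} {s : Set ℝ} {ρ δ : ℝ} {α β α0 β0 c : ℂ}
    (hx : x ∈ HP0 l) (hx0 : x0 ∈ HP0 l) (hρ : 0 < ρ) (hs : ∀ r ∈ s, ρ ≤ r)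
    (hF : ∀ r ∈ s, DifferentiableAt ℝ F r) (hG : ∀ r ∈ s, DifferentiableAt ℝ G r)
    (f0 : ∀ r ∈ s, ‖F r - mJ d l w x x0 α α0 c r‖ ≤ δ)
    (f1 : ∀ r ∈ s, ‖deriv F r - deriv (mJ d l w x x0 α α0 c) r‖ ≤ δ)
    (g0 : ∀ r ∈ s, ‖G r - mJs d l w x x0 β β0 c r‖ ≤ δ)
    (g1 : ∀ r ∈ s, ‖deriv G r - deriv (mJs d l w x x0 β β0 c) r‖ ≤ δ) :
    ExtClose d l w x x0 (αS l w x x0 α α0 c) (βS l w x x0 β β0 c) (α0 * gE l w x0)
      (β0 * gEs l w x0) c F G s ((ρ ^ l)⁻¹ * (1 + l / ρ) * δ) := by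
  have A : ∀ r ∈ s, _ := fun r hr => div_pow_close (l := l) hρ (hs r hr) (hF r hr).hasDerivAt
    (mJ_eq (d := d) (w := w) hx hx0 (hρ.trans_le (hs r hr)) α α0 c)
    ((hasDerivAt_mJ hx hx0 (hρ.trans_le (hs r hr)) α α0 c).deriv) (f0 r hr) (f1 r hr)
  have B : ∀ r ∈ s, _ := fun r hr => div_pow_close (l := l) hρ (hs r hr) (hG r hr).hasDerivAt
    (mJs_eq (d := d) (w := w) hx hx0 (hρ.trans_le (hs r hr)) β β0 c)
    ((hasDerivAt_mJs hx hx0 (hρ.trans_le (hs r hr)) β β0 c).deriv) (g0 r hr) (g1 r hr)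
  exact ⟨fun r hr => (A r hr).1, fun r hr => (A r hr).2, fun r hr => (B r hr).1,
    fun r hr => (B r hr).2⟩

end

end Vale.Agent.P139.H745
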