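import Vale.Agent.P139.H745.JS2
import Vale.Agent.P139.H901.Mom

/-!
# The exterior model in the normalisation of helper901

`Ph d l κ`, `DD d l κ κ0` (H901/Mom.lean) against `mJ`, `mJs` (H745/JS2.lean),
`κ = kp m w lam = lam + a_m - i w`.
-/

noncomputable section

open MeasureTheory Set Filter Topology Complex ComplexConjugate

namespace Vale.Agent.P139.H745

open KU H311 BU H901

/-- Shifted spectral parameter `κ = lam + a_m - i w`. -/
def kp (m : ℕ) (w : ℝ) (lam : ℂ) : ℂ := lam + (aa m : ℂ) - I * (w : ℂ)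

lemma aa_pos {m : ℕ} (hm : 1 ≤ m) : 0 < aa m := by
  unfold aa
  have : (0 : ℝ) < m := by exact_mod_cast hm
  positivity

lemma mem_HP0 {l m : ℕ} (hm : 1 ≤ m) {lam : ℂ} (h : 0 ≤ lam.re) : lam + (aa m : ℂ) ∈ HP0 l := by
  have h1 := aa_pos hm
  have h2 : (0 : ℝ) ≤ l := Nat.cast_nonneg l
  show 0 < (lam + (aa m : ℂ)).re + l / 2
  rw [Complex.add_re, Complex.ofReal_re]
  positivity

lemma Ph_eq_PhJ (d l m : ℕ) (w : ℝ) (lam : ℂ) :
    Ph d l (kp m w lam) = PhJ d l w (lam + (aa m : ℂ)) := by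
  unfold Ph PhJ kp aE bE
  congr 1 <;> ring

lemma DD_eq (d l : ℕ) {m : ℕ} (hm : 1 ≤ m) (w : ℝ) {lam lam0 : ℂ} (h : 0 ≤ lam.re) {r : ℝ}
    (hr : 0 < r) : DD d l (kp m w lam) (kp m w lam0) r =
      dslope (fun y => PhJ d l w y r) (lam0 + (aa m : ℂ)) (lam + (aa m : ℂ)) := by
  unfold DD
  by_cases hne : lam = lam0
  · subst hne
    rw [if_pos rfl, dslope_PhJ_self (mem_HP0 hm h) hr]
    unfold dPh kp aE bE
    congr 1 <;> ring
  · have h1 : kp m w lam ≠ kp m w lam0 := by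
      intro h
      apply hne
      unfold kp at h
      linear_combination h
    have h2 : lam + (aa m : ℂ) ≠ lam0 + (aa m : ℂ) := fun h => hne (by linear_combination h)
    rw [if_neg h1, dslope_of_ne _ h2, slope_def_field, Ph_eq_PhJ, Ph_eq_PhJ]
    congr 1
    unfold kp
    ring

lemma conj_add_aa (m : ℕ) (lam : ℂ) : conj (lam + (aa m : ℂ)) = conj lam + (aa m : ℂ) := by
  rw [map_add, Complex.conj_ofReal]

lemma model_eq (d l : ℕ) {m : ℕ} (hm : 1 ≤ m) (w : ℝ) {lam lam0 : ℂ} (h : 0 ≤ lam.re)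
    (α α0 c : ℂ) {r : ℝ} (hr : 0 < r) :
    α * Ph d l (kp m w lam) r + c * α0 * DD d l (kp m w lam) (kp m w lam0) r =
      mJ d l w (lam + (aa m : ℂ)) (lam0 + (aa m : ℂ)) α α0 c r := by
  rw [DD_eq d l hm w h hr, Ph_eq_PhJ, mJ]

lemma model_deriv (d l : ℕ) {m : ℕ} (hm : 1 ≤ m) (w : ℝ) {lam lam0 : ℂ} (h : 0 ≤ lam.re)
    (h0 : 0 ≤ lam0.re) (α α0 c : ℂ) {r : ℝ} (hr : 0 < r) :
    α * deriv (Ph d l (kp m w lam)) r + c * α0 * deriv (DD d l (kp m w lam) (kp m w lam0)) r =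
      deriv (mJ d l w (lam + (aa m : ℂ)) (lam0 + (aa m : ℂ)) α α0 c) r := by
  have hx := mem_HP0 (l := l) hm h
  have hx0 := mem_HP0 (l := l) hm h0
  have d1 : DifferentiableAt ℝ (Ph d l (kp m w lam)) r := by
    have := (hasDerivAt_mJ (d := d) (w := w) hx hx0 hr 1 0 0).differentiableAt
    have e : mJ d l w (lam + (aa m : ℂ)) (lam0 + (aa m : ℂ)) 1 0 0 = Ph d l (kp m w lam) := by
      funext t
      simp [mJ, Ph_eq_PhJ]
    rwa [e] at this
  have d2 : DifferentiableAt ℝ (fun t => dslope (fun y => PhJ d l w y t) (lam0 + (aa m : ℂ))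
      (lam + (aa m : ℂ))) r := by
    have := (hasDerivAt_mJ (d := d) (w := w) hx hx0 hr 0 1 1).differentiableAt
    have e : mJ d l w (lam + (aa m : ℂ)) (lam0 + (aa m : ℂ)) 0 1 1 =
        fun t => dslope (fun y => PhJ d l w y t) (lam0 + (aa m : ℂ)) (lam + (aa m : ℂ)) := by
      funext t
      simp [mJ]
    rwa [e] at this
  have e2 : DD d l (kp m w lam) (kp m w lam0) =ᶠ[𝓝 r] fun t =>
      dslope (fun y => PhJ d l w y t) (lam0 + (aa m : ℂ)) (lam + (aa m : ℂ)) := by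
    filter_upwards [Ioi_mem_nhds hr] with t ht
    exact DD_eq d l hm w h ht
  rw [e2.deriv_eq]
  have e3 : mJ d l w (lam + (aa m : ℂ)) (lam0 + (aa m : ℂ)) α α0 c = fun t =>
      α * Ph d l (kp m w lam) t + c * α0 *
        dslope (fun y => PhJ d l w y t) (lam0 + (aa m : ℂ)) (lam + (aa m : ℂ)) := by
    funext t
    rw [mJ, Ph_eq_PhJ]
  rw [e3]
  exact ((d1.hasDerivAt.const_mul α).add (d2.hasDerivAt.const_mul (c * α0))).deriv.symm

lemma models_eq (d l : ℕ) {m : ℕ} (hm : 1 ≤ m) (w : ℝ) {lam lam0 : ℂ} (h : 0 ≤ lam.re)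
    (β β0 c : ℂ) {r : ℝ} (hr : 0 < r) :
    β * conj (Ph d l (kp m w (conj lam)) r) +
        c * β0 * conj (DD d l (kp m w (conj lam)) (kp m w (conj lam0)) r) =
      mJs d l w (lam + (aa m : ℂ)) (lam0 + (aa m : ℂ)) β β0 c r := by
  have h' : 0 ≤ (conj lam).re := by simpa using h
  have := congrArg conj (model_eq d l hm w (lam := conj lam) (lam0 := conj lam0) h' (conj β)
    (conj β0) (conj c) hr)
  simp only [map_add, map_mul, Complex.conj_conj] at this
  rw [this, ← conj_add_aa, ← conj_add_aa, conj_mJ]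

lemma models_deriv (d l : ℕ) {m : ℕ} (hm : 1 ≤ m) (w : ℝ) {lam lam0 : ℂ} (h : 0 ≤ lam.re)
    (h0 : 0 ≤ lam0.re) (β β0 c : ℂ) {r : ℝ} (hr : 0 < r) :
    β * conj (deriv (Ph d l (kp m w (conj lam))) r) +
        c * β0 * conj (deriv (DD d l (kp m w (conj lam)) (kp m w (conj lam0))) r) =
      deriv (mJs d l w (lam + (aa m : ℂ)) (lam0 + (aa m : ℂ)) β β0 c) r := by
  have h' : 0 ≤ (conj lam).re := by simpa using h
  have h0' : 0 ≤ (conj lam0).re := by simpa using h0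
  have := congrArg conj (model_deriv d l hm w (lam := conj lam) (lam0 := conj lam0) h' h0'
    (conj β) (conj β0) (conj c) hr)
  simp only [map_add, map_mul, Complex.conj_conj] at this
  rw [this]
  have hx := mem_HP0 (l := l) hm h'
  have hx0 := mem_HP0 (l := l) hm h0'
  have hd := (hasDerivAt_mJ (d := d) (w := w) hx hx0 hr (conj β) (conj β0)
    (conj c)).differentiableAt.hasDerivAt
  have hs := hd.star
  refine (HasDerivAt.deriv (hs.congr_of_eventuallyEq (Eventually.of_forall fun t => ?_))).symm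
  show mJs d l w (lam + (aa m : ℂ)) (lam0 + (aa m : ℂ)) β β0 c t =
    conj (mJ d l w (conj lam + (aa m : ℂ)) (conj lam0 + (aa m : ℂ)) (conj β) (conj β0) (conj c) t)
  rw [← conj_add_aa, ← conj_add_aa, conj_mJ]

end Vale.Agent.P139.H745
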